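import Vale.Agent.P361.LRO.SR.Core
import Vale.Agent.P361.LRO.Garding

/-!
# Strong Rayleigh property, `θ ≥ 0` (P361, block SR)
-/

namespace Vale.Agent.P361.LRO.SR

open Finset

variable {X : Type} [Fintype X] [DecidableEq X]

/-- exponent of the node `x` -/
def expo (π : Equiv.Perm X) (s : X → Fin 2) (x : X) : ℕ :=
  if s x = s (π x) then 1 else if s x = 1 then 2 else 0

omit [DecidableEq X] in
theorem sum_expo (π : Equiv.Perm X) (s : X → Fin 2) : ∑ x, expo π s x = Fintype.card X := by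
  have h1 : ∀ x, expo π s x + (s (π x) : ℕ) = 1 + (s x : ℕ) := by
    intro x
    rw [expo]
    by_cases h : s x = s (π x)
    · rw [if_pos h, h]
    · rw [if_neg h]
      by_cases h3 : s x = 1
      · have h4 : s (π x) = 0 := by
          have : s (π x) ≠ 1 := fun h' => h (h3.trans h'.symm)
          omega
        simp [h3, h4]
      · have h5 : s x = 0 := by omega
        have h4 : s (π x) = 1 := by omega
        simp [h5, h4]
  have h2 := Finset.sum_congr (rfl : (univ : Finset X) = univ) fun x _ => h1 x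
  rw [Finset.sum_add_distrib, Finset.sum_add_distrib,
    Equiv.sum_comp π (fun x => (s x : ℕ))] at h2
  simpa using h2

/-- the generating polynomial -/
noncomputable def genP (μ : Equiv.Perm X → ℝ) (θ : X → ℝ) : MvPolynomial X ℝ :=
  ∑ π : Equiv.Perm X, ∑ s : X → Fin 2, MvPolynomial.C (μ π * wt θ π s) *
    ∏ x, MvPolynomial.X x ^ expo π s x

theorem genP_hom (μ : Equiv.Perm X → ℝ) (θ : X → ℝ) :
    (genP μ θ).IsHomogeneous (Fintype.card X) := by
  refine MvPolynomial.IsHomogeneous.sum _ _ _ fun π _ =>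
    MvPolynomial.IsHomogeneous.sum _ _ _ fun s _ => ?_
  have h1 : (∏ x, (MvPolynomial.X x : MvPolynomial X ℝ) ^ expo π s x).IsHomogeneous
      (∑ x, expo π s x) :=
    MvPolynomial.IsHomogeneous.prod _ _ _ fun x _ => by
      simpa using (MvPolynomial.isHomogeneous_X ℝ x).pow (expo π s x)
  rw [sum_expo] at h1
  have h2 := (MvPolynomial.isHomogeneous_C X (μ π * wt θ π s)).mul h1
  simpa using h2

theorem aeval_genP (μ : Equiv.Perm X → ℝ) (θ : X → ℝ) (ζ : X → ℂ) :
    MvPolynomial.aeval ζ (genP μ θ) = gen μ θ ζ := by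
  rw [genP, map_sum, gen]
  refine Finset.sum_congr rfl fun π _ => ?_
  rw [map_sum]
  refine Finset.sum_congr rfl fun s _ => ?_
  rw [map_mul, map_prod, MvPolynomial.aeval_C]
  congr 1
  refine Finset.prod_congr rfl fun x _ => ?_
  rw [map_pow, MvPolynomial.aeval_X, expo]
  split_ifs <;> simp

theorem gen_lower {μ : Equiv.Perm X → ℝ} {θ : X → ℝ} (h : Stable μ θ) {ζ : X → ℂ}
    (hζ : ∀ x, 0 < (ζ x).im) (hb0 : gen μ θ (fun x => ((ζ x).im : ℂ)) ≠ 0) :
    ‖gen μ θ (fun x => ((ζ x).im : ℂ))‖ * (1 / 2) ^ Fintype.card X ≤ ‖gen μ θ ζ‖ := by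
  set p : X → ℂ := fun x => ((ζ x).re : ℂ) + ((ζ x).im / 2 : ℝ) * Complex.I with hp
  set q : X → ℂ := fun x => ((ζ x).im : ℂ) with hq
  obtain ⟨h1, h2⟩ := T1.line_degree (genP_hom μ θ) p q
  rw [aeval_genP] at h2
  have h3 := T1.eval_norm_ge (T1.line (genP μ θ) p q) (Fintype.card X) h1 (by rw [h2]; exact hb0)
    (fun u hu => ?_) (Complex.I / 2) (by simp)
  · rw [h2, T1.line_eval, aeval_genP] at h3
    have e : (fun i => p i + q i * (Complex.I / 2)) = ζ := by
      funext x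
      apply Complex.ext
      · simp [hp, hq]
      · simp [hp, hq]
        ring
    rw [e] at h3
    have e2 : (Complex.I / 2).im = 1 / 2 := by simp
    rw [e2] at h3
    exact h3
  · rw [T1.line_eval, aeval_genP]
    refine h _ fun x => ?_
    have : (p x + q x * u).im = (ζ x).im / 2 + (ζ x).im * u.im := by
      simp [hp, hq]
    rw [this]
    have h4 := hζ x
    have : 0 ≤ (ζ x).im * u.im := mul_nonneg h4.le hu
    linarith

theorem continuous_gen (μ : Equiv.Perm X → ℝ) (ζ : X → ℂ) : Continuous fun θ : X → ℝ =>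
    gen μ θ ζ := by
  unfold gen wt
  refine continuous_finsetSum _ fun π _ => continuous_finsetSum _ fun s _ => ?_
  refine Continuous.mul ?_ continuous_const
  refine Complex.continuous_ofReal.comp (continuous_const.mul ?_)
  refine continuous_finsetProd _ fun x _ => ?_
  split_ifs
  · exact continuous_const
  · exact continuous_apply x

theorem gen_pos {μ : Equiv.Perm X → ℝ} (hμ0 : ∀ π, 0 ≤ μ π) (hμ1 : 0 < ∑ π, μ π) {θ : X → ℝ}
    (hθ : ∀ x, 0 ≤ θ x) {b : X → ℝ} (hb : ∀ x, 0 < b x) :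
    gen μ θ (fun x => (b x : ℂ)) ≠ 0 := by
  have e : gen μ θ (fun x => (b x : ℂ)) = ((∑ π : Equiv.Perm X, ∑ s : X → Fin 2, μ π * wt θ π s *
      ∏ x, (if s x = s (π x) then b x else if s x = 1 then b x ^ 2 else 1) : ℝ) : ℂ) := by
    rw [gen]
    push_cast
    refine Finset.sum_congr rfl fun π _ => Finset.sum_congr rfl fun s _ => ?_
    congr 1
    refine Finset.prod_congr rfl fun x _ => ?_
    split_ifs <;> simp
  rw [e, Complex.ofReal_ne_zero]
  apply ne_of_gt
  have hP : ∀ (π : Equiv.Perm X) (s : X → Fin 2),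
      0 < ∏ x, (if s x = s (π x) then b x else if s x = 1 then b x ^ 2 else 1) := fun π s =>
    Finset.prod_pos fun x _ => by
      have := hb x
      split_ifs <;> positivity
  have hw : ∀ (π : Equiv.Perm X) (s : X → Fin 2), 0 ≤ wt θ π s := fun π s =>
    Finset.prod_nonneg fun x _ => by
      split_ifs
      · exact zero_le_one
      · exact hθ x
  have h1 : 0 < ∑ π : Equiv.Perm X, μ π * ∏ x, b x := by
    rw [← Finset.sum_mul]
    exact mul_pos hμ1 (Finset.prod_pos fun x _ => hb x)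
  refine h1.trans_le (Finset.sum_le_sum fun π _ => ?_)
  have h2 := Finset.single_le_sum (f := fun s : X → Fin 2 => μ π * wt θ π s *
      ∏ x, (if s x = s (π x) then b x else if s x = 1 then b x ^ 2 else 1))
    (fun s _ => mul_nonneg (mul_nonneg (hμ0 π) (hw π s)) (hP π s).le)
    (mem_univ (fun _ : X => (0 : Fin 2)))
  refine le_trans (le_of_eq ?_) h2
  simp [wt]

/-- closure of stability in `θ` -/
theorem stable_closure {μ : Equiv.Perm X → ℝ} (hμ0 : ∀ π, 0 ≤ μ π) (hμ1 : 0 < ∑ π, μ π)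
    (h : ∀ θ : X → ℝ, (∀ x, 0 < θ x ∧ θ x ≤ 1) → Stable μ θ) {θ : X → ℝ}
    (hθ : ∀ x, 0 ≤ θ x ∧ θ x ≤ 1) : Stable μ θ := by
  intro ζ hζ h0
  set g : ℝ → X → ℝ := fun ε x => max (θ x) ε with hg
  have hgc : Continuous g := continuous_pi fun x => continuous_const.max continuous_id
  have hg0 : g 0 = θ := by
    funext x
    exact max_eq_left (hθ x).1
  have hc1 : Continuous fun ε => ‖gen μ (g ε) ζ‖ := ((continuous_gen μ ζ).comp hgc).norm
  have hc2 : Continuous fun ε => ‖gen μ (g ε) (fun x => ((ζ x).im : ℂ))‖ *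
      (1 / 2) ^ Fintype.card X :=
    (((continuous_gen μ _).comp hgc).norm).mul continuous_const
  have hle : ‖gen μ (g 0) (fun x => ((ζ x).im : ℂ))‖ * (1 / 2) ^ Fintype.card X ≤
      ‖gen μ (g 0) ζ‖ := by
    have t1 : Filter.Tendsto (fun ε => ‖gen μ (g ε) ζ‖) (nhdsWithin 0 (Set.Ioi 0))
        (nhds ‖gen μ (g 0) ζ‖) := (hc1.tendsto 0).mono_left nhdsWithin_le_nhds
    have t2 : Filter.Tendsto (fun ε => ‖gen μ (g ε) (fun x => ((ζ x).im : ℂ))‖ *
        (1 / 2) ^ Fintype.card X) (nhdsWithin 0 (Set.Ioi 0))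
        (nhds (‖gen μ (g 0) (fun x => ((ζ x).im : ℂ))‖ * (1 / 2) ^ Fintype.card X)) :=
      (hc2.tendsto 0).mono_left nhdsWithin_le_nhds
    refine le_of_tendsto_of_tendsto t2 t1 ?_
    have hmem : Set.Ioc (0 : ℝ) 1 ∈ nhdsWithin (0 : ℝ) (Set.Ioi 0) :=
      Ioc_mem_nhdsGT one_pos
    filter_upwards [hmem] with ε hε
    refine gen_lower (h (g ε) fun x => ⟨lt_max_of_lt_right hε.1, max_le (hθ x).2 hε.2⟩) hζ ?_
    exact gen_pos hμ0 hμ1 (fun x => le_max_of_le_left (hθ x).1) hζ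
  rw [hg0, h0, norm_zero] at hle
  have h1 : 0 < ‖gen μ θ (fun x => ((ζ x).im : ℂ))‖ * (1 / 2) ^ Fintype.card X :=
    mul_pos (norm_pos_iff.2 (gen_pos hμ0 hμ1 (fun x => (hθ x).1) hζ)) (by positivity)
  linarith

theorem law_nonneg' {l : List (X × X × ℝ)} (hl : ∀ g ∈ l, 0 ≤ g.2.2 ∧ g.2.2 ≤ 1 / 2)
    (σ π : Equiv.Perm X) : 0 ≤ law l σ π := by
  induction l generalizing π with
  | nil =>
    rw [law]
    by_cases h : π = σ
    · subst h; simp
    · rw [Pi.single_eq_of_ne h]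
  | cons g l ih =>
    obtain ⟨h0, h1⟩ := hl g List.mem_cons_self
    have ih' := fun π => ih (fun g' hg' => hl g' (List.mem_cons_of_mem _ hg')) π
    rw [law]
    have := ih' π
    have := ih' (Equiv.swap g.1 g.2.1 * π)
    have : 0 ≤ 1 - g.2.2 := by linarith
    positivity

theorem law_sum' (l : List (X × X × ℝ)) (σ : Equiv.Perm X) : ∑ π, law l σ π = 1 := by
  induction l with
  | nil => simp [law]
  | cons g l ih =>
    have h1 : ∑ π, law l σ (Equiv.swap g.1 g.2.1 * π) = ∑ π, law l σ π :=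
      Equiv.sum_comp (Equiv.mulLeft (Equiv.swap g.1 g.2.1)) (law l σ)
    simp only [law]
    rw [Finset.sum_add_distrib, ← Finset.mul_sum, ← Finset.mul_sum, h1, ih]
    ring

/-- **The charge law is strong Rayleigh.** -/
theorem stable_of_isLaw {μ : Equiv.Perm X → ℝ} (hμ : IsLaw μ) {θ : X → ℝ}
    (hθ : ∀ x, 0 ≤ θ x ∧ θ x ≤ 1) : Stable μ θ := by
  obtain ⟨l, σ, hl, h⟩ := id hμ
  refine stable_closure (fun π => ?_) ?_ (fun θ hθ => stable_of_isLaw_pos hμ hθ) hθ
  · rw [h]; exact law_nonneg' hl σ π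
  · rw [h, law_sum']; exact one_pos

end Vale.Agent.P361.LRO.SR
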