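import Vale.Agent.P361.LRO.Defs

/-!
# P361, long range order: the one-node inequality (statement)
-/

namespace Vale.Agent.P361.LRO

open Finset

/-- The one-node inequality (Theorem 1 of note 8371 in covariance form):
`Cov(j_z², (a·j)²) ≤ F_z² / v_z + sqrt (1 - M_z²) Star_z(a)`. -/
def OneNode {X : Type} [Fintype X] [DecidableEq X] (μ : Equiv.Perm X → ℝ) : Prop :=
  ∀ θ : X → ℝ, (∀ x, 0 ≤ θ x ∧ θ x ≤ 1) → ∀ z, 0 < θ z → ∀ a : X → ℝ,
    EE μ θ (fun π s => jj π s z ^ 2 * (∑ x, a x * jj π s x) ^ 2) - vv μ θ z * KK μ θ a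
      ≤ (∑ x, cc μ θ z x * (a x - a z)) ^ 2 / vv μ θ z
        + Real.sqrt (1 - mag μ θ z ^ 2) * ∑ x, cc μ θ z x * (a x - a z) ^ 2

end Vale.Agent.P361.LRO
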