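import Vale.Agent.P361.LRO.SR.OneNode
import Vale.Agent.P361.LRO.SR.Stable
import Vale.Agent.P361.LRO.Net.Griffiths
import Vale.Agent.P361.LRO.Net.Lower

/-!
# P361, long range order: every law of random transpositions is good
-/

namespace Vale.Agent.P361.LRO

/-- Block (2)/(3): all the network facts for a charge law. -/
theorem good_of_isLaw {X : Type} [Fintype X] [DecidableEq X] {μ : Equiv.Perm X → ℝ}
    (hμ : IsLaw μ) : Net.Good μ where
  nn := hμ.nonneg
  pos := by rw [hμ.sum]; exact zero_lt_one
  ccnn := fun θ hθ x y hxy => cc_nonneg hμ.nonneg hθ hxy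
  vle := fun θ hθ z => ONI.vv_le hμ (fun x => (hθ x).1) z (SR.stable_of_isLaw hμ (by
    intro x
    by_cases hx : x = z
    · subst hx; simp
    · rw [Function.update_of_ne hx]; exact hθ x))
  one := ONI.oneNode_of_stable hμ (fun θ hθ => SR.stable_of_isLaw hμ hθ)
    (fun θ hθ u v huv => cc_nonneg hμ.nonneg hθ huv)

end Vale.Agent.P361.LRO
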