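import Mathlib

/-!
# Closed hemisphere calculus (P361, block SR)

Pairs `u : Fin 2 → ℂ`; `Dc u`: `u ≠ 0` and `0 ≤ Re (u 0 * conj (u 1))` (closed hemisphere);
`Do u`: strict inequality.
* `pair_ne`: the pairing of an open and a closed point does not vanish;
* `gate_two`: the partial swap of a bilinear form which does not vanish on `Dc × Dc`;
* `trace_ne`: its trace does not vanish;
* `node_open`: a node with `θ > 0`, `Re z > 0` maps closed to open.
-/

namespace Vale.Agent.P361.LRO.SR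

open Complex

/-- closed hemisphere -/
def Dc (u : Fin 2 → ℂ) : Prop := u ≠ 0 ∧ 0 ≤ (u 0 * (starRingEnd ℂ) (u 1)).re

/-- open hemisphere -/
def Do (u : Fin 2 → ℂ) : Prop := 0 < (u 0 * (starRingEnd ℂ) (u 1)).re

theorem re_mul_conj (a b : ℂ) : (a * (starRingEnd ℂ) b).re = a.re * b.re + a.im * b.im := by
  simp [Complex.mul_re]

theorem Do.dc {u : Fin 2 → ℂ} (h : Do u) : Dc u := by
  refine ⟨?_, h.le⟩
  rintro rfl
  simp [Do] at h

/-- pairing of a closed and an open point -/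
theorem pair_ne {w u : Fin 2 → ℂ} (hw : Do w) (hu : Dc u) : w 0 * u 0 + w 1 * u 1 ≠ 0 := by
  intro h
  obtain ⟨h0, h1⟩ := hu
  have hw1 : w 1 ≠ 0 := by
    intro h2; rw [Do, h2] at hw; simp at hw
  have hw0 : w 0 ≠ 0 := by
    intro h2; rw [Do, h2] at hw; simp at hw
  have hu0 : u 0 ≠ 0 := by
    intro h2
    rw [h2, mul_zero, zero_add] at h
    have h3 : u 1 = 0 := (mul_eq_zero.1 h).resolve_left hw1
    exact h0 (by funext i; fin_cases i <;> simp [h2, h3])
  have h4 : u 1 = - (w 0 * u 0) / w 1 := by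
    field_simp
    linear_combination h
  have h5 : (u 0 * (starRingEnd ℂ) (u 1)) * (w 0 * (starRingEnd ℂ) (w 0)) * 0 = 0 := by ring
  have h6 : u 0 * (starRingEnd ℂ) (u 1) * (w 1 * (starRingEnd ℂ) (w 1)) =
      - (u 0 * (starRingEnd ℂ) (u 0)) * ((starRingEnd ℂ) (w 0) * w 1) := by
    rw [h4]
    have hc : (starRingEnd ℂ) (w 1) ≠ 0 := by simpa using hw1
    rw [map_div₀, map_neg, map_mul]
    field_simp
  have h7 := congrArg Complex.re h6
  rw [Complex.mul_conj, Complex.mul_conj] at h7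
  have h8 : (starRingEnd ℂ) (w 0) * w 1 = (starRingEnd ℂ) (w 0 * (starRingEnd ℂ) (w 1)) := by
    simp
  rw [h8] at h7
  simp only [Complex.re_mul_ofReal, neg_mul, Complex.neg_re, Complex.re_ofReal_mul,
    Complex.conj_re] at h7
  have h9 : 0 < normSq (u 0) := normSq_pos.2 hu0
  have h10 : 0 < normSq (w 1) := normSq_pos.2 hw1
  have h11 : 0 < normSq (u 0) * (w 0 * (starRingEnd ℂ) (w 1)).re := mul_pos h9 hw
  have h12 : 0 ≤ (u 0 * (starRingEnd ℂ) (u 1)).re * normSq (w 1) := mul_nonneg h1 h10.le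
  linarith

/-- the bilinear form of `C` -/
def bil (C : Fin 2 → Fin 2 → ℂ) (u w : Fin 2 → ℂ) : ℂ :=
  ∑ i, ∑ k, C i k * u i * w k

theorem bil_eq (C : Fin 2 → Fin 2 → ℂ) (u w : Fin 2 → ℂ) :
    bil C u w = (C 0 0 * u 0 + C 1 0 * u 1) * w 0 + (C 0 1 * u 0 + C 1 1 * u 1) * w 1 := by
  simp only [bil, Fin.sum_univ_two]
  ring

theorem open_of_bil {C : Fin 2 → Fin 2 → ℂ} {u : Fin 2 → ℂ}
    (h : ∀ w, Dc w → bil C u w ≠ 0) :
    0 < ((C 0 0 * u 0 + C 1 0 * u 1) * (starRingEnd ℂ) (C 0 1 * u 0 + C 1 1 * u 1)).re := by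
  set A := C 0 0 * u 0 + C 1 0 * u 1
  set B := C 0 1 * u 0 + C 1 1 * u 1
  by_contra hn
  rw [not_lt] at hn
  by_cases hAB : A = 0 ∧ B = 0
  · refine h ![1, 1] ⟨?_, by simp⟩ ?_
    · intro h0
      have := congrFun h0 0
      simp at this
    · rw [bil_eq]
      change A * _ + B * _ = 0
      rw [hAB.1, hAB.2]; ring
  · refine h ![B, -A] ⟨?_, ?_⟩ ?_
    · intro h0
      have e0 := congrFun h0 0
      have e1 := congrFun h0 1
      simp at e0 e1
      exact hAB ⟨e1, e0⟩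
    · rw [re_mul_conj] at hn ⊢
      simp only [Matrix.cons_val_zero, Matrix.cons_val_one, Complex.neg_re, Complex.neg_im]
      linarith
    · rw [bil_eq]
      change A * B + B * (-A) = 0
      ring

/-- **two-site gate lemma** -/
theorem gate_two {C : Fin 2 → Fin 2 → ℂ} (h : ∀ u w, Dc u → Dc w → bil C u w ≠ 0) {p : ℝ}
    (hp0 : 0 ≤ p) (hp1 : p ≤ 1) {u w : Fin 2 → ℂ} (hu : Dc u) (hw : Dc w) :
    (1 - p) * bil C u w + p * bil C w u ≠ 0 := by
  have h0 := open_of_bil (C := C) (u := u) fun w hw => h u w hu hw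
  have h1 := open_of_bil (C := fun i k => C k i) (u := u) fun w hw => by
    have e : bil (fun i k => C k i) u w = bil C w u := by
      rw [bil_eq, bil_eq]; ring
    rw [e]
    exact h w u hw hu
  have hopen : Do ![C 0 0 * u 0 + ((1 - p) * C 1 0 + p * C 0 1) * u 1,
      ((1 - p) * C 0 1 + p * C 1 0) * u 0 + C 1 1 * u 1] := by
    rw [Do]
    simp only [Matrix.cons_val_zero, Matrix.cons_val_one]
    have key : ((C 0 0 * u 0 + ((1 - p) * C 1 0 + p * C 0 1) * u 1) *
        (starRingEnd ℂ) (((1 - p) * C 0 1 + p * C 1 0) * u 0 + C 1 1 * u 1)).re =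
        (1 - p) * ((C 0 0 * u 0 + C 1 0 * u 1) *
          (starRingEnd ℂ) (C 0 1 * u 0 + C 1 1 * u 1)).re +
        p * ((C 0 0 * u 0 + C 0 1 * u 1) *
          (starRingEnd ℂ) (C 1 0 * u 0 + C 1 1 * u 1)).re +
        p * (1 - p) * normSq (C 1 0 - C 0 1) * (u 0 * (starRingEnd ℂ) (u 1)).re := by
      simp only [re_mul_conj]
      simp only [normSq_apply, Complex.add_re, Complex.add_im, Complex.mul_re,
        Complex.mul_im, Complex.sub_re, Complex.sub_im, Complex.ofReal_re, Complex.ofReal_im,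
        Complex.one_re, Complex.one_im]
      ring
    rw [key]
    have hp2 : 0 ≤ 1 - p := by linarith
    have t3 : 0 ≤ p * (1 - p) * normSq (C 1 0 - C 0 1) * (u 0 * (starRingEnd ℂ) (u 1)).re :=
      mul_nonneg (mul_nonneg (mul_nonneg hp0 hp2) (normSq_nonneg _)) hu.2
    rcases hp0.eq_or_lt with h2 | h2
    · rw [← h2] at t3 ⊢
      simp only [sub_zero, one_mul, zero_mul, add_zero]
      exact h0
    · have t2 := mul_pos h2 h1
      have t1 : 0 ≤ (1 - p) * ((C 0 0 * u 0 + C 1 0 * u 1) *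
          (starRingEnd ℂ) (C 0 1 * u 0 + C 1 1 * u 1)).re := mul_nonneg hp2 h0.le
      linarith
  have h2 := pair_ne hopen hw
  intro h3
  apply h2
  rw [bil_eq, bil_eq] at h3
  simp only [Matrix.cons_val_zero, Matrix.cons_val_one]
  linear_combination h3

theorem exists_root_re (c : ℂ) : ∃ t : ℂ, t ^ 2 = c ∧ 0 ≤ t.re := by
  obtain ⟨t, ht⟩ := IsAlgClosed.exists_pow_nat_eq c (n := 2) (by norm_num)
  rcases le_total 0 t.re with h | h
  · exact ⟨t, ht, h⟩
  · exact ⟨-t, by rw [neg_sq, ht], by rw [Complex.neg_re]; linarith⟩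

/-- **trace lemma** -/
theorem trace_ne {C : Fin 2 → Fin 2 → ℂ} (h : ∀ u w, Dc u → Dc w → bil C u w ≠ 0) :
    C 0 0 + C 1 1 ≠ 0 := by
  intro h0
  by_cases h1 : C 1 0 = 0
  · refine h ![0, 1] ![1, 0] ⟨?_, ?_⟩ ⟨?_, ?_⟩ ?_
    · intro e
      have := congrFun e 1
      simp at this
    · simp
    · intro e
      have := congrFun e 0
      simp at this
    · simp
    · rw [bil_eq]
      simp [h1]
  · obtain ⟨t, ht, htr⟩ := exists_root_re (-(C 0 1) / C 1 0)
    refine h ![1, t] ![t, 1] ⟨?_, ?_⟩ ⟨?_, ?_⟩ ?_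
    · intro e
      have := congrFun e 0
      simp at this
    · rw [re_mul_conj]
      simpa using htr
    · intro e
      have := congrFun e 1
      simp at this
    · rw [re_mul_conj]
      simpa using htr
    · rw [bil_eq]
      simp only [Matrix.cons_val_zero, Matrix.cons_val_one]
      have h2 : C 1 0 * t ^ 2 = - C 0 1 := by
        rw [ht]; field_simp
      linear_combination h2 + t * h0

/-- a node with `θ > 0`, `Re z > 0` maps the closed hemisphere into the open one -/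
theorem node_open {θ : ℝ} {z : ℂ} (h0 : 0 < θ) (h1 : θ ≤ 1) (hz : 0 < z.re) {u : Fin 2 → ℂ}
    (hu : Dc u) : Do ![u 0 * z + u 1 * (θ * z ^ 2), u 0 * θ + u 1 * z] := by
  obtain ⟨hne, hm⟩ := hu
  rw [Do]
  simp only [Matrix.cons_val_zero, Matrix.cons_val_one]
  rw [re_mul_conj] at hm ⊢
  have key : (u 0 * z + u 1 * (θ * z ^ 2)).re * (u 0 * θ + u 1 * z).re +
      (u 0 * z + u 1 * (θ * z ^ 2)).im * (u 0 * θ + u 1 * z).im =
      θ * z.re * (((u 0).re - θ * z.im * (u 1).im) ^ 2 + ((u 0).im + θ * z.im * (u 1).re) ^ 2 +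
        ((u 1).re ^ 2 + (u 1).im ^ 2) * (z.re ^ 2 + z.im ^ 2 * (1 - θ ^ 2))) +
      ((u 0).re * (u 1).re + (u 0).im * (u 1).im) *
        (z.re ^ 2 * (1 + θ ^ 2) + z.im ^ 2 * (1 - θ ^ 2)) := by
    simp only [Complex.add_re, Complex.add_im, Complex.mul_re, Complex.mul_im,
      Complex.ofReal_re, Complex.ofReal_im, pow_two]
    ring
  rw [key]
  have hθ2 : 0 ≤ 1 - θ ^ 2 := by nlinarith
  have t2 : 0 ≤ ((u 0).re * (u 1).re + (u 0).im * (u 1).im) *
        (z.re ^ 2 * (1 + θ ^ 2) + z.im ^ 2 * (1 - θ ^ 2)) := by positivity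
  have t3 : 0 < ((u 0).re - θ * z.im * (u 1).im) ^ 2 + ((u 0).im + θ * z.im * (u 1).re) ^ 2 +
        ((u 1).re ^ 2 + (u 1).im ^ 2) * (z.re ^ 2 + z.im ^ 2 * (1 - θ ^ 2)) := by
    by_cases hb : u 1 = 0
    · have ha : u 0 ≠ 0 := by
        intro ha
        exact hne (by funext i; fin_cases i <;> simp [ha, hb])
      have h3 : 0 < (u 0).re ^ 2 + (u 0).im ^ 2 := by
        have := normSq_pos.2 ha
        rw [normSq_apply] at this
        nlinarith
      simpa [hb] using h3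
    · have h3 : 0 < (u 1).re ^ 2 + (u 1).im ^ 2 := by
        have := normSq_pos.2 hb
        rw [normSq_apply] at this
        nlinarith
      have h4 : 0 < z.re ^ 2 + z.im ^ 2 * (1 - θ ^ 2) := by
        have : 0 < z.re ^ 2 := by positivity
        have : 0 ≤ z.im ^ 2 * (1 - θ ^ 2) := by positivity
        linarith
      positivity
  have t1 := mul_pos (mul_pos h0 hz) t3
  linarith

end Vale.Agent.P361.LRO.SR
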