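import Vale.Agent.P361.LRO.Defs
import Vale.Agent.P361.LRO.SR.Hemi

/-!
# Strong Rayleigh property of the charge law (P361, block SR)

`stable_of_isLaw_pos`: the generating polynomial of the charges of a law `IsLaw μ` with
`0 < θ ≤ 1` does not vanish when all variables are in the open upper half plane.
-/

namespace Vale.Agent.P361.LRO.SR

open Finset

variable {X : Type} [Fintype X] [DecidableEq X]

/-- evaluation of a vector at a family of pairs -/
noncomputable def ev (ψ : (X → Fin 2) → ℂ) (ζ : X → Fin 2 → ℂ) : ℂ := ∑ s, ψ s * ∏ x, ζ x (s x)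

/-- strict stability -/
def SSt (ψ : (X → Fin 2) → ℂ) : Prop := ∀ ζ : X → Fin 2 → ℂ, (∀ x, Dc (ζ x)) → ev ψ ζ ≠ 0

theorem prod_upd (ζ : X → Fin 2 → ℂ) (a : X) (u : Fin 2 → ℂ) (s : X → Fin 2) :
    ∏ x, Function.update ζ a u x (s x) = u (s a) * ∏ x ∈ univ \ {a}, ζ x (s x) := by
  have h : (fun x => Function.update ζ a u x (s x)) =
      Function.update (fun x => ζ x (s x)) a (u (s a)) := by
    funext x
    exact Function.apply_update (fun x (v : Fin 2 → ℂ) => v (s x)) ζ a u x
  rw [show (∏ x, Function.update ζ a u x (s x)) =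
    ∏ x, (fun x => Function.update ζ a u x (s x)) x from rfl, h]
  exact Finset.prod_update_of_mem (mem_univ a) _ _

theorem ev_update (ψ : (X → Fin 2) → ℂ) (ζ : X → Fin 2 → ℂ) (a : X) (u : Fin 2 → ℂ) :
    ev ψ (Function.update ζ a u) =
      ∑ i, u i * ev ψ (Function.update ζ a (Pi.single i 1)) := by
  simp only [ev, prod_upd, Finset.mul_sum]
  rw [Finset.sum_comm]
  refine Finset.sum_congr rfl fun s _ => ?_
  have h : u (s a) = ∑ i, u i * (Pi.single i (1 : ℂ) : Fin 2 → ℂ) (s a) := by
    simp [Pi.single_apply]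
  conv_lhs => rw [h]
  rw [Finset.sum_mul, Finset.mul_sum]
  exact Finset.sum_congr rfl fun i _ => by ring

theorem ev_prod (φ : X → Fin 2 → ℂ) (ζ : X → Fin 2 → ℂ) :
    ev (fun s => ∏ x, φ x (s x)) ζ = ∏ x, ∑ i, φ x i * ζ x i := by
  rw [ev, Finset.prod_univ_sum]
  simp only [Fintype.piFinset_univ, Finset.prod_mul_distrib]

theorem ev_comp (ψ : (X → Fin 2) → ℂ) (τ : Equiv.Perm X) (ζ : X → Fin 2 → ℂ) :
    ev (fun s => ψ (s ∘ τ)) ζ = ev ψ (ζ ∘ τ) := by
  rw [ev, ev]
  refine Fintype.sum_equiv (Equiv.arrowCongr τ.symm (Equiv.refl (Fin 2))) _ _ fun s => ?_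
  have h : ((Equiv.arrowCongr τ.symm (Equiv.refl (Fin 2))) s) = s ∘ τ := by
    funext x
    simp [Equiv.arrowCongr]
  rw [h]
  congr 1
  rw [← Equiv.prod_comp τ]
  rfl

theorem sst_prod {φ : X → Fin 2 → ℂ} (hφ : ∀ x, Do (φ x)) : SSt (fun s => ∏ x, φ x (s x)) := by
  intro ζ hζ
  rw [ev_prod]
  refine Finset.prod_ne_zero_iff.2 fun x _ => ?_
  rw [Fin.sum_univ_two]
  exact pair_ne (hφ x) (hζ x)

theorem sst_comp {ψ : (X → Fin 2) → ℂ} (h : SSt ψ) (τ : Equiv.Perm X) :
    SSt (fun s => ψ (s ∘ τ)) := by
  intro ζ hζ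
  rw [ev_comp]
  exact h _ fun x => hζ _

theorem sst_gate {ψ : (X → Fin 2) → ℂ} (h : SSt ψ) (a b : X) {p : ℝ} (hp0 : 0 ≤ p) (hp1 : p ≤ 1) :
    SSt (fun s => (1 - (p : ℂ)) * ψ s + (p : ℂ) * ψ (s ∘ Equiv.swap a b)) := by
  intro ζ hζ
  have h1 : ev (fun s => (1 - (p : ℂ)) * ψ s + (p : ℂ) * ψ (s ∘ Equiv.swap a b)) ζ =
      (1 - (p : ℂ)) * ev ψ ζ + (p : ℂ) * ev ψ (ζ ∘ Equiv.swap a b) := by
    rw [← ev_comp]
    simp only [ev, Finset.mul_sum, ← Finset.sum_add_distrib]
    exact Finset.sum_congr rfl fun s _ => by ring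
  rw [h1]
  by_cases hab : a = b
  · subst hab
    have : ζ ∘ Equiv.swap a a = ζ := by
      funext x; simp
    rw [this]
    have h2 := h ζ hζ
    intro h3
    apply h2
    linear_combination h3
  · set C : Fin 2 → Fin 2 → ℂ := fun i k =>
      ev ψ (Function.update (Function.update ζ a (Pi.single i 1)) b (Pi.single k 1)) with hC
    have key : ∀ u w : Fin 2 → ℂ,
        ev ψ (Function.update (Function.update ζ a u) b w) = bil C u w := by
      intro u w
      rw [ev_update, bil]
      rw [Finset.sum_comm]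
      refine Finset.sum_congr rfl fun k _ => ?_
      rw [Function.update_comm hab, ev_update, Finset.mul_sum]
      refine Finset.sum_congr rfl fun i _ => ?_
      have e : C i k = ev ψ (Function.update (Function.update ζ b (Pi.single k 1)) a
          (Pi.single i 1)) := by
        rw [hC]
        simp only
        rw [Function.update_comm hab]
      rw [e]
      ring
    have hCne : ∀ u w, Dc u → Dc w → bil C u w ≠ 0 := by
      intro u w hu hw
      rw [← key]
      refine h _ fun x => ?_
      by_cases hxb : x = b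
      · subst hxb; simpa using hw
      · rw [Function.update_of_ne hxb]
        by_cases hxa : x = a
        · subst hxa; simpa using hu
        · rw [Function.update_of_ne hxa]; exact hζ x
    have e1 : ev ψ ζ = bil C (ζ a) (ζ b) := by
      rw [← key]
      simp
    have e2 : ev ψ (ζ ∘ Equiv.swap a b) = bil C (ζ b) (ζ a) := by
      rw [← key]
      congr 1
      funext x
      by_cases hxb : x = b
      · subst hxb; simp
      · rw [Function.update_of_ne hxb]
        by_cases hxa : x = a
        · subst hxa; simp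
        · rw [Function.update_of_ne hxa]
          simp [Equiv.swap_apply_of_ne_of_ne hxa hxb]
    rw [e1, e2]
    exact gate_two hCne hp0 hp1 (hζ a) (hζ b)

/-- the vector obtained from a product vector by a law of permutations -/
noncomputable def lv (μ : Equiv.Perm X → ℝ) (φ : X → Fin 2 → ℂ) (s : X → Fin 2) : ℂ :=
  ∑ π : Equiv.Perm X, (μ π : ℂ) * ∏ x, φ x (s (π x))

theorem sst_law (l : List (X × X × ℝ)) (σ : Equiv.Perm X)
    (hl : ∀ g ∈ l, 0 ≤ g.2.2 ∧ g.2.2 ≤ 1) {φ : X → Fin 2 → ℂ} (hφ : ∀ x, Do (φ x)) :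
    SSt (lv (law l σ) φ) := by
  induction l with
  | nil =>
    have h : lv (law [] σ) φ = fun s => (fun s => ∏ x, φ x (s x)) (s ∘ σ) := by
      funext s
      rw [lv, Finset.sum_eq_single σ]
      · simp [law]
      · intro π _ hπ
        simp [law, Pi.single_eq_of_ne hπ]
      · intro h; exact absurd (mem_univ σ) h
    rw [h]
    exact sst_comp (sst_prod hφ) σ
  | cons g l ih =>
    have ih' := ih fun g' hg' => hl g' (List.mem_cons_of_mem _ hg')
    obtain ⟨h0, h1⟩ := hl g List.mem_cons_self
    have h : lv (law (g :: l) σ) φ = fun s => (1 - (g.2.2 : ℂ)) * lv (law l σ) φ s +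
        (g.2.2 : ℂ) * lv (law l σ) φ (s ∘ Equiv.swap g.1 g.2.1) := by
      funext s
      have e2 : lv (law l σ) φ (s ∘ Equiv.swap g.1 g.2.1) =
          ∑ π : Equiv.Perm X, (law l σ (Equiv.swap g.1 g.2.1 * π) : ℂ) * ∏ x, φ x (s (π x)) := by
        rw [lv]
        refine (Fintype.sum_equiv (Equiv.mulLeft (Equiv.swap g.1 g.2.1)) _ _ fun π => ?_).symm
        simp only [Equiv.coe_mulLeft, Function.comp, Equiv.Perm.mul_apply, Equiv.swap_apply_self]
      rw [e2, lv, lv, Finset.mul_sum, Finset.mul_sum, ← Finset.sum_add_distrib]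
      refine Finset.sum_congr rfl fun π _ => ?_
      rw [law]
      push_cast
      ring
    rw [h]
    exact sst_gate ih' _ _ h0 h1

/-- general contraction of a kernel -/
noncomputable def con (K : (X → Fin 2) → (X → Fin 2) → ℂ) (E : X → Fin 2 → Fin 2 → ℂ) : ℂ :=
  ∑ s, ∑ t, K s t * ∏ x, E x (s x) (t x)

theorem con_update (K : (X → Fin 2) → (X → Fin 2) → ℂ) (E : X → Fin 2 → Fin 2 → ℂ) (a : X)
    (e : Fin 2 → Fin 2 → ℂ) :
    con K (Function.update E a e) =
      ∑ i, ∑ k, e i k * con K (Function.update E a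
        (fun i' k' => if i' = i ∧ k' = k then 1 else 0)) := by
  have hp : ∀ (e : Fin 2 → Fin 2 → ℂ) (s t : X → Fin 2),
      ∏ x, Function.update E a e x (s x) (t x) =
        e (s a) (t a) * ∏ x ∈ univ \ {a}, E x (s x) (t x) := by
    intro e s t
    have h : (fun x => Function.update E a e x (s x) (t x)) =
        Function.update (fun x => E x (s x) (t x)) a (e (s a) (t a)) := by
      funext x
      exact Function.apply_update (fun x (v : Fin 2 → Fin 2 → ℂ) => v (s x) (t x)) E a e x
    rw [show (∏ x, Function.update E a e x (s x) (t x)) =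
      ∏ x, (fun x => Function.update E a e x (s x) (t x)) x from rfl, h]
    exact Finset.prod_update_of_mem (mem_univ a) _ _
  simp only [con, hp, Finset.mul_sum]
  have e1 : ∀ s t : X → Fin 2, K s t * (e (s a) (t a) * ∏ x ∈ univ \ {a}, E x (s x) (t x)) =
      ∑ i, ∑ k, e i k * (K s t * ((if s a = i ∧ t a = k then 1 else 0) *
        ∏ x ∈ univ \ {a}, E x (s x) (t x))) := by
    intro s t
    rw [Finset.sum_eq_single (s a), Finset.sum_eq_single (t a)]
    · simp; ring
    · intro k _ hk
      simp [Ne.symm hk]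
    · intro h; exact absurd (mem_univ _) h
    · intro i _ hi
      simp [Ne.symm hi]
    · intro h; exact absurd (mem_univ _) h
  simp only [e1]
  rw [Finset.sum_congr rfl fun s _ => Finset.sum_comm]
  rw [Finset.sum_comm]
  refine Finset.sum_congr rfl fun i _ => ?_
  rw [Finset.sum_congr rfl fun s _ => Finset.sum_comm]
  rw [Finset.sum_comm]

/-- the trace of a strictly stable kernel does not vanish -/
theorem trace_con {K : (X → Fin 2) → (X → Fin 2) → ℂ}
    (h : ∀ ω ζ : X → Fin 2 → ℂ, (∀ x, Dc (ω x)) → (∀ x, Dc (ζ x)) →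
      con K (fun x i k => ω x i * ζ x k) ≠ 0) : ∑ s, K s s ≠ 0 := by
  have key : ∀ T : Finset X, ∀ ω ζ : X → Fin 2 → ℂ, (∀ x, Dc (ω x)) → (∀ x, Dc (ζ x)) →
      con K (fun x => if x ∈ T then (fun i k => if i = k then 1 else 0)
        else fun i k => ω x i * ζ x k) ≠ 0 := by
    intro T
    induction T using Finset.induction_on with
    | empty =>
      intro ω ζ hω hζ
      simpa using h ω ζ hω hζ
    | insert a T ha ih =>
      intro ω ζ hω hζ
      set E : X → Fin 2 → Fin 2 → ℂ := fun x => if x ∈ T then (fun i k => if i = k then 1 else 0)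
        else fun i k => ω x i * ζ x k with hE
      have e1 : (fun x => if x ∈ insert a T then (fun i k => if i = k then (1 : ℂ) else 0)
        else fun i k => ω x i * ζ x k) =
          Function.update E a (fun i k => if i = k then 1 else 0) := by
        funext x
        by_cases hx : x = a
        · subst hx; simp
        · rw [Function.update_of_ne hx]
          simp [hE, hx]
      rw [e1, con_update]
      set C : Fin 2 → Fin 2 → ℂ := fun i k => con K (Function.update E a
        (fun i' k' => if i' = i ∧ k' = k then 1 else 0)) with hC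
      have hCne : ∀ u w, Dc u → Dc w → bil C u w ≠ 0 := by
        intro u w hu hw
        have e2 : bil C u w = con K (Function.update E a (fun i k => u i * w k)) := by
          rw [con_update, bil]
          refine Finset.sum_congr rfl fun i _ => Finset.sum_congr rfl fun k _ => ?_
          rw [hC]; ring
        rw [e2]
        have e3 : Function.update E a (fun i k => u i * w k) =
            fun x => if x ∈ T then (fun i k => if i = k then (1 : ℂ) else 0)
              else fun i k => Function.update ω a u x i * Function.update ζ a w x k := by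
          funext x
          by_cases hx : x = a
          · subst hx; simp [ha]
          · rw [Function.update_of_ne hx, Function.update_of_ne hx, Function.update_of_ne hx]
        rw [e3]
        refine ih _ _ (fun x => ?_) (fun x => ?_)
        · by_cases hx : x = a
          · subst hx; simpa using hu
          · rw [Function.update_of_ne hx]; exact hω x
        · by_cases hx : x = a
          · subst hx; simpa using hw
          · rw [Function.update_of_ne hx]; exact hζ x
      have h1 := trace_ne hCne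
      intro h2
      apply h1
      rw [← h2]
      simp [Fin.sum_univ_two, hC]
  have h1 := key univ (fun _ => ![1, 1]) (fun _ => ![1, 1]) (fun x => ⟨?_, by simp⟩)
    (fun x => ⟨?_, by simp⟩)
  · intro h2
    apply h1
    rw [con]
    refine Eq.trans ?_ h2
    refine Finset.sum_congr rfl fun s _ => ?_
    rw [Finset.sum_eq_single s]
    · simp
    · intro t _ ht
      have : ∃ x, s x ≠ t x := by
        by_contra hcon
        push Not at hcon
        exact ht (funext fun x => (hcon x).symm)
      obtain ⟨x, hx⟩ := this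
      have h0 : ∏ x, (if x ∈ (univ : Finset X) then (fun i k => if i = k then (1 : ℂ) else 0)
        else fun i k => (![1, 1] : Fin 2 → ℂ) i * (![1, 1] : Fin 2 → ℂ) k) (s x) (t x) = 0 :=
        Finset.prod_eq_zero (mem_univ x) (by simp [hx])
      rw [h0, mul_zero]
    · intro h; exact absurd (mem_univ s) h
  · intro e
    have := congrFun e 0
    simp at this
  · intro e
    have := congrFun e 0
    simp at this

/-- node matrix -/
noncomputable def nod (θ : ℝ) (z : ℂ) (i k : Fin 2) : ℂ :=
  if i = k then z else θ * (if i = 1 then z ^ 2 else 1)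

theorem gen_eq (μ : Equiv.Perm X → ℝ) (θ : X → ℝ) (ζ : X → ℂ) :
    gen μ θ ζ = ∑ s : X → Fin 2, ∑ π : Equiv.Perm X,
      (μ π : ℂ) * ∏ x, nod (θ x) (ζ x) (s x) (s (π x)) := by
  rw [gen, Finset.sum_comm]
  refine Finset.sum_congr rfl fun s _ => Finset.sum_congr rfl fun π _ => ?_
  push_cast [wt]
  rw [mul_assoc, ← Finset.prod_mul_distrib]
  congr 1
  refine Finset.prod_congr rfl fun x _ => ?_
  rw [nod]
  by_cases h : s x = s (π x)
  · simp [h]
  · simp only [h, if_false]

/-- the generating polynomial does not vanish in the right half plane -/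
theorem gen_ne_of_re {l : List (X × X × ℝ)} {σ : Equiv.Perm X}
    (hl : ∀ g ∈ l, 0 ≤ g.2.2 ∧ g.2.2 ≤ 1) {θ : X → ℝ} (hθ : ∀ x, 0 < θ x ∧ θ x ≤ 1) {ζ : X → ℂ}
    (hζ : ∀ x, 0 < (ζ x).re) : gen (law l σ) θ ζ ≠ 0 := by
  rw [gen_eq]
  set K : (X → Fin 2) → (X → Fin 2) → ℂ := fun s' s =>
    ∑ π : Equiv.Perm X, ((law l σ π : ℝ) : ℂ) * ∏ x, nod (θ x) (ζ x) (s' x) (s (π x)) with hK
  refine trace_con (K := K) fun ω ξ hω hξ => ?_
  set φ : X → Fin 2 → ℂ := fun x k => ∑ i, ω x i * nod (θ x) (ζ x) i k with hφ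
  have hφo : ∀ x, Do (φ x) := by
    intro x
    have h1 := node_open (hθ x).1 (hθ x).2 (hζ x) (hω x)
    have e : φ x = ![ω x 0 * ζ x + ω x 1 * (θ x * ζ x ^ 2), ω x 0 * θ x + ω x 1 * ζ x] := by
      funext k
      fin_cases k <;> simp [hφ, nod, Fin.sum_univ_two]
    rw [e]; exact h1
  have h1 := sst_law l σ hl hφo ξ hξ
  have e : con K (fun x i k => ω x i * ξ x k) = ev (lv (law l σ) φ) ξ := by
    rw [con, ev, Finset.sum_comm]
    refine Finset.sum_congr rfl fun s _ => ?_
    simp only [hK, lv, Finset.sum_mul]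
    rw [Finset.sum_comm]
    refine Finset.sum_congr rfl fun π _ => ?_
    have e3 : ∏ x, φ x (s (π x)) = ∑ s' : X → Fin 2,
        ∏ x, (ω x (s' x) * nod (θ x) (ζ x) (s' x) (s (π x))) := by
      rw [hφ]
      simp only
      rw [Finset.prod_univ_sum]
      simp only [Fintype.piFinset_univ]
    rw [e3, Finset.mul_sum, Finset.sum_mul]
    refine Finset.sum_congr rfl fun s' _ => ?_
    rw [Finset.prod_mul_distrib, Finset.prod_mul_distrib]
    ring
  rw [e]
  exact h1

/-- homogeneity -/
theorem gen_smul (μ : Equiv.Perm X → ℝ) (θ : X → ℝ) (ζ : X → ℂ) {c : ℂ} (hc : c ≠ 0) :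
    gen μ θ (fun x => c * ζ x) = c ^ Fintype.card X * gen μ θ ζ := by
  rw [gen, gen, Finset.mul_sum]
  refine Finset.sum_congr rfl fun π _ => ?_
  rw [Finset.mul_sum]
  refine Finset.sum_congr rfl fun s _ => ?_
  have h : ∏ x, (if s x = s (π x) then c * ζ x else if s x = 1 then (c * ζ x) ^ 2 else 1) =
      c ^ Fintype.card X * ∏ x, (if s x = s (π x) then ζ x else if s x = 1 then ζ x ^ 2 else 1) := by
    have h1 : ∀ x, (if s x = s (π x) then c * ζ x else if s x = 1 then (c * ζ x) ^ 2 else 1) *
        (if s (π x) = 1 then c else 1) =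
        (c * (if s x = 1 then c else 1)) *
        (if s x = s (π x) then ζ x else if s x = 1 then ζ x ^ 2 else 1) := by
      intro x
      by_cases h2 : s x = s (π x)
      · rw [if_pos h2, if_pos h2, ← h2]
        by_cases h3 : s x = 1
        · simp [h3]; ring
        · simp [h3]
      · rw [if_neg h2, if_neg h2]
        by_cases h3 : s x = 1
        · have h4 : s (π x) ≠ 1 := fun h => h2 (h3.trans h.symm)
          simp [h3, h4]; ring
        · have h4 : s (π x) = 1 := by omega
          simp [h3, h4]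
    have h5 : ∏ x, (if s (π x) = 1 then c else (1 : ℂ)) = ∏ x, (if s x = 1 then c else 1) :=
      Equiv.prod_comp π (fun x => if s x = 1 then c else (1 : ℂ))
    have h6 : ∏ x, (if s x = 1 then c else (1 : ℂ)) ≠ 0 :=
      Finset.prod_ne_zero_iff.2 fun x _ => by split_ifs <;> simp [hc]
    have h7 := Finset.prod_congr (rfl : (univ : Finset X) = univ) fun x _ => h1 x
    rw [Finset.prod_mul_distrib, Finset.prod_mul_distrib, Finset.prod_mul_distrib, h5,
      Finset.prod_const, Finset.card_univ] at h7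
    apply mul_right_cancel₀ h6
    rw [h7]; ring
  rw [h]; ring

/-- **strong Rayleigh property**, `θ > 0` -/
theorem stable_of_isLaw_pos {μ : Equiv.Perm X → ℝ} (hμ : IsLaw μ) {θ : X → ℝ}
    (hθ : ∀ x, 0 < θ x ∧ θ x ≤ 1) : Stable μ θ := by
  obtain ⟨l, σ, hl, rfl⟩ := hμ
  intro ζ hζ h0
  have h1 := gen_smul (law l σ) θ ζ (c := -Complex.I) (by simp)
  rw [h0, mul_zero] at h1
  refine gen_ne_of_re (l := l) (σ := σ) (θ := θ) (ζ := fun x => -Complex.I * ζ x)
    (fun g hg => ⟨(hl g hg).1, by linarith [(hl g hg).2]⟩) hθ (fun x => ?_) h1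
  simpa using hζ x

end Vale.Agent.P361.LRO.SR
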