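import Mathlib

/-!
# P361, long range order, block SR: the derivative of the stiffness in the slice parameters

Omega-form: `W : Ω → ℝ` is the law at `θ = 1`, `n : Ω → V → ℕ` the exponents, `j = n - 1` the
charges; the law at `θ` has the weight `W ω * ∏ x, if n ω x = 1 then 1 else θ x`.
-/

namespace Vale.Agent.P361.LRO.SR

open Finset
open scoped BigOperators

noncomputable section

variable {Ω V : Type*} [Fintype Ω] [Fintype V] [DecidableEq V]

/-- charge -/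
def jc (n : Ω → V → ℕ) (ω : Ω) (x : V) : ℝ := (n ω x : ℝ) - 1

/-- weight at `θ` -/
def wθ (W : Ω → ℝ) (n : Ω → V → ℕ) (θ : V → ℝ) (ω : Ω) : ℝ :=
  W ω * ∏ x, (if n ω x = 1 then 1 else θ x)

/-- partition function at `θ` -/
def Zθ (W : Ω → ℝ) (n : Ω → V → ℕ) (θ : V → ℝ) : ℝ := ∑ ω, wθ W n θ ω

/-- expectation at `θ` -/
def Eθ (W : Ω → ℝ) (n : Ω → V → ℕ) (θ : V → ℝ) (f : Ω → ℝ) : ℝ :=
  (∑ ω, wθ W n θ ω * f ω) / Zθ W n θ

/-- conductances `- E[j_x j_y]` -/
def cθ (W : Ω → ℝ) (n : Ω → V → ℕ) (θ : V → ℝ) (x y : V) : ℝ :=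
  - Eθ W n θ (fun ω => jc n ω x * jc n ω y)

/-- `v_z = E[j_z^2]`. -/
def vθ (W : Ω → ℝ) (n : Ω → V → ℕ) (θ : V → ℝ) (z : V) : ℝ :=
  Eθ W n θ (fun ω => jc n ω z ^ 2)

/-- `K(a) = E[(a.j)^2]` -/
def Kθ (W : Ω → ℝ) (n : Ω → V → ℕ) (θ : V → ℝ) (a : V → ℝ) : ℝ :=
  Eθ W n θ (fun ω => (∑ x, a x * jc n ω x) ^ 2)

section Deriv

variable (W : Ω → ℝ) (n : Ω → V → ℕ)

lemma jc_sq (hn : ∀ ω x, n ω x ≤ 2) (ω : Ω) (x : V) :
    jc n ω x ^ 2 = if n ω x = 1 then 0 else 1 := by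
  have h := hn ω x
  unfold jc
  interval_cases hh : n ω x <;> norm_num

/-- derivative of a single weight. -/
lemma wθ_deriv (hn : ∀ ω x, n ω x ≤ 2) (θ : ℝ → V → ℝ) (r : V → ℝ) (s : ℝ)
    (hθ : ∀ x, HasDerivAt (fun t => θ t x) (-(r x * θ s x)) s) (ω : Ω) :
    HasDerivAt (fun t => wθ W n (θ t) ω)
      (-∑ z, r z * (wθ W n (θ s) ω * jc n ω z ^ 2)) s := by
  have h1 : ∀ x ∈ (Finset.univ : Finset V),
      HasDerivAt (fun t => (if n ω x = 1 then (1:ℝ) else θ t x))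
        (-(r x * jc n ω x ^ 2 * (if n ω x = 1 then (1:ℝ) else θ s x))) s := by
    intro x _
    rw [jc_sq n hn]
    by_cases h : n ω x = 1
    · simp only [h, if_true]
      simpa using hasDerivAt_const s (1:ℝ)
    · simp only [h, if_false]
      simpa using hθ x
  have h2 := (HasDerivAt.fun_finsetProd h1).const_mul (W ω)
  refine h2.congr_deriv ?_
  unfold wθ
  rw [← Finset.sum_neg_distrib, Finset.mul_sum]
  refine Finset.sum_congr rfl fun z _ => ?_
  rw [← Finset.mul_prod_erase Finset.univ (fun x => (if n ω x = 1 then (1:ℝ) else θ s x))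
    (Finset.mem_univ z)]
  simp only [smul_eq_mul]
  ring

/-- (D1) derivative of an expectation. -/
theorem Eθ_deriv (hn : ∀ ω x, n ω x ≤ 2) (θ : ℝ → V → ℝ) (r : V → ℝ) (s : ℝ)
    (hθ : ∀ x, HasDerivAt (fun t => θ t x) (-(r x * θ s x)) s)
    (hZ : Zθ W n (θ s) ≠ 0) (f : Ω → ℝ) :
    HasDerivAt (fun t => Eθ W n (θ t) f)
      (-∑ z, r z * (Eθ W n (θ s) (fun ω => jc n ω z ^ 2 * f ω)
        - Eθ W n (θ s) (fun ω => jc n ω z ^ 2) * Eθ W n (θ s) f)) s := by
  have hN : HasDerivAt (fun t => ∑ ω, wθ W n (θ t) ω * f ω)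
      (∑ ω, (-∑ z, r z * (wθ W n (θ s) ω * jc n ω z ^ 2)) * f ω) s :=
    HasDerivAt.fun_sum fun ω _ => (wθ_deriv W n hn θ r s hθ ω).mul_const (f ω)
  have hD : HasDerivAt (fun t => Zθ W n (θ t))
      (∑ ω, (-∑ z, r z * (wθ W n (θ s) ω * jc n ω z ^ 2))) s :=
    HasDerivAt.fun_sum fun ω _ => (wθ_deriv W n hn θ r s hθ ω)
  have h := hN.fun_div hD hZ
  refine h.congr_deriv ?_
  have e1 : ∑ ω, (-∑ z, r z * (wθ W n (θ s) ω * jc n ω z ^ 2)) * f ω
      = -∑ z, r z * (∑ ω, wθ W n (θ s) ω * (jc n ω z ^ 2 * f ω)) := by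
    simp only [neg_mul, Finset.sum_mul, Finset.sum_neg_distrib, Finset.mul_sum]
    rw [Finset.sum_comm]
    congr 1
    refine Finset.sum_congr rfl fun z _ => Finset.sum_congr rfl fun ω _ => ?_
    ring
  have e2 : ∑ ω, (-∑ z, r z * (wθ W n (θ s) ω * jc n ω z ^ 2))
      = -∑ z, r z * (∑ ω, wθ W n (θ s) ω * jc n ω z ^ 2) := by
    simp only [Finset.sum_neg_distrib, Finset.mul_sum]
    rw [Finset.sum_comm]
  rw [e1, e2]
  have e3 : ∀ (Z N0 : ℝ), ∑ z, r z * ((∑ ω, wθ W n (θ s) ω * (jc n ω z ^ 2 * f ω)) / Z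
      - (∑ ω, wθ W n (θ s) ω * jc n ω z ^ 2) / Z * (N0 / Z))
      = (∑ z, r z * (∑ ω, wθ W n (θ s) ω * (jc n ω z ^ 2 * f ω))) / Z
        - (∑ z, r z * (∑ ω, wθ W n (θ s) ω * jc n ω z ^ 2)) / Z * (N0 / Z) := by
    intro Z N0
    rw [Finset.sum_div, Finset.sum_div, Finset.sum_mul, ← Finset.sum_sub_distrib]
    refine Finset.sum_congr rfl fun z _ => ?_
    ring
  unfold Eθ
  rw [e3]
  field_simp
  ring

end Deriv

section OneNode

variable (W : Ω → ℝ) (n : Ω → V → ℕ)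

/-- sum over the event `A = {j_z ≠ 0}` with the slice parameter at `z` set to `1`. -/
def QA (θ : V → ℝ) (z : V) (X : Ω → ℝ) : ℝ :=
  ∑ ω, if n ω z = 1 then 0 else wθ W n (Function.update θ z 1) ω * X ω

/-- sum over the event `B = {j_z = 0}`. -/
def QB (θ : V → ℝ) (z : V) (X : Ω → ℝ) : ℝ :=
  ∑ ω, if n ω z = 1 then wθ W n (Function.update θ z 1) ω * X ω else 0

lemma wθ_update (θ : V → ℝ) (z : V) (ω : Ω) :
    wθ W n θ ω = (if n ω z = 1 then 1 else θ z) * wθ W n (Function.update θ z 1) ω := by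
  unfold wθ
  rw [← Finset.mul_prod_erase Finset.univ (fun x => (if n ω x = 1 then (1:ℝ) else θ x))
    (Finset.mem_univ z),
    ← Finset.mul_prod_erase Finset.univ
      (fun x => (if n ω x = 1 then (1:ℝ) else Function.update θ z 1 x)) (Finset.mem_univ z)]
  have h : ∏ x ∈ Finset.univ.erase z, (if n ω x = 1 then (1:ℝ) else Function.update θ z 1 x)
      = ∏ x ∈ Finset.univ.erase z, (if n ω x = 1 then (1:ℝ) else θ x) := by
    refine Finset.prod_congr rfl fun x hx => ?_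
    rw [Function.update_of_ne (Finset.ne_of_mem_erase hx)]
  rw [h]
  simp only [Function.update_self, ite_self]
  ring

lemma sum_split (θ : V → ℝ) (z : V) (X : Ω → ℝ) :
    ∑ ω, wθ W n θ ω * X ω = QB W n θ z X + θ z * QA W n θ z X := by
  unfold QA QB
  rw [Finset.mul_sum, ← Finset.sum_add_distrib]
  refine Finset.sum_congr rfl fun ω _ => ?_
  rw [wθ_update W n θ z ω]
  split_ifs <;> ring

lemma Zθ_split (θ : V → ℝ) (z : V) :
    Zθ W n θ = QB W n θ z (fun _ => 1) + θ z * QA W n θ z (fun _ => 1) := by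
  rw [← sum_split]
  unfold Zθ
  simp

lemma sum_jsq (hn : ∀ ω x, n ω x ≤ 2) (θ : V → ℝ) (z : V) (X : Ω → ℝ) :
    ∑ ω, wθ W n θ ω * (jc n ω z ^ 2 * X ω) = θ z * QA W n θ z X := by
  unfold QA
  rw [Finset.mul_sum]
  refine Finset.sum_congr rfl fun ω _ => ?_
  rw [wθ_update W n θ z ω, jc_sq n hn]
  split_ifs <;> ring

lemma sum_jz (hn : ∀ ω x, n ω x ≤ 2) (θ : V → ℝ) (z : V) (X : Ω → ℝ) :
    ∑ ω, wθ W n θ ω * (jc n ω z * X ω) = θ z * QA W n θ z (fun ω => jc n ω z * X ω) := by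
  rw [← sum_jsq W n hn]
  refine Finset.sum_congr rfl fun ω _ => ?_
  have h : jc n ω z ^ 2 * (jc n ω z * X ω) = jc n ω z * X ω := by
    have h := jc_sq n hn ω z
    by_cases h1 : n ω z = 1
    · have : jc n ω z = 0 := by simp [jc, h1]
      rw [this]; ring
    · rw [if_neg h1] at h
      rw [h, one_mul]
  rw [h]

/-- (D2) the one-node inequality in covariance form, from Theorem 1 of note 8371
(hypothesis `hT1`: `E_A - E_B ≤ abar² + δ (L - abar²)` with `π x = E_A[-j_z j_x]`). -/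
theorem cov_le (hn : ∀ ω x, n ω x ≤ 2) (θ : V → ℝ) (z : V) (a : V → ℝ) (δ : ℝ)
    (hθ : 0 ≤ θ z) (hA : 0 ≤ QA W n θ z (fun _ => 1)) (hB : 0 < QB W n θ z (fun _ => 1))
    (hA0 : QA W n θ z (fun _ => 1) = 0 → ∀ X, QA W n θ z X = 0)
    (hT1 : 0 < QA W n θ z (fun _ => 1) →
      QA W n θ z (fun ω => (∑ x, a x * jc n ω x) ^ 2) / QA W n θ z (fun _ => 1)
        - QB W n θ z (fun ω => (∑ x, a x * jc n ω x) ^ 2) / QB W n θ z (fun _ => 1)
      ≤ (∑ x, QA W n θ z (fun ω => - (jc n ω z * jc n ω x)) / QA W n θ z (fun _ => 1)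
            * (a x - a z)) ^ 2
        + δ * (∑ x, QA W n θ z (fun ω => - (jc n ω z * jc n ω x)) / QA W n θ z (fun _ => 1)
            * (a x - a z) ^ 2
          - (∑ x, QA W n θ z (fun ω => - (jc n ω z * jc n ω x)) / QA W n θ z (fun _ => 1)
            * (a x - a z)) ^ 2)) :
    Eθ W n θ (fun ω => jc n ω z ^ 2 * (∑ x, a x * jc n ω x) ^ 2)
      - Eθ W n θ (fun ω => jc n ω z ^ 2) * Eθ W n θ (fun ω => (∑ x, a x * jc n ω x) ^ 2)
    ≤ (1 - vθ W n θ z) * ((1 - δ) * ((∑ x, cθ W n θ z x * (a x - a z)) ^ 2 / vθ W n θ z)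
        + δ * ∑ x, cθ W n θ z x * (a x - a z) ^ 2) := by
  set wA := QA W n θ z (fun _ => 1) with hwA
  set wB := QB W n θ z (fun _ => 1) with hwB
  set t := θ z with ht
  set P := QA W n θ z (fun ω => (∑ x, a x * jc n ω x) ^ 2) with hP
  set R := QB W n θ z (fun ω => (∑ x, a x * jc n ω x) ^ 2) with hR
  have hZ : Zθ W n θ = wB + t * wA := Zθ_split W n θ z
  have hZpos : 0 < wB + t * wA := by positivity
  have e1 : Eθ W n θ (fun ω => jc n ω z ^ 2 * (∑ x, a x * jc n ω x) ^ 2) = t * P / (wB + t * wA) := by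
    unfold Eθ; rw [sum_jsq W n hn, hZ]
  have e2 : Eθ W n θ (fun ω => jc n ω z ^ 2) = t * wA / (wB + t * wA) := by
    unfold Eθ
    have := sum_jsq W n hn θ z (fun _ => 1)
    simp only [mul_one] at this
    rw [this, hZ]
  have e3 : Eθ W n θ (fun ω => (∑ x, a x * jc n ω x) ^ 2) = (R + t * P) / (wB + t * wA) := by
    unfold Eθ; rw [sum_split W n θ z, hZ]
  have e4 : ∀ x, cθ W n θ z x
      = t * QA W n θ z (fun ω => - (jc n ω z * jc n ω x)) / (wB + t * wA) := by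
    intro x
    unfold cθ Eθ
    rw [sum_jz W n hn, hZ, ← neg_div]
    congr 1
    have : QA W n θ z (fun ω => - (jc n ω z * jc n ω x)) = - QA W n θ z (fun ω => jc n ω z * jc n ω x) := by
      unfold QA
      rw [← Finset.sum_neg_distrib]
      refine Finset.sum_congr rfl fun ω _ => ?_
      split_ifs <;> ring
    rw [this]; ring
  have ev : vθ W n θ z = t * wA / (wB + t * wA) := by
    unfold vθ; exact e2
  rcases hA.eq_or_lt with hA' | hA'
  · -- wA = 0
    have hz := hA0 hA'.symm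
    have hP0 : P = 0 := hz _
    have hc0 : ∀ x, cθ W n θ z x = 0 := by
      intro x; rw [e4, hz]; simp
    rw [e1, e2, hP0, ← hA']
    simp [hc0]
  rcases hθ.eq_or_lt with ht' | ht'
  · have hc0 : ∀ x, cθ W n θ z x = 0 := by
      intro x; rw [e4, ← ht']; simp
    rw [e1, e2, ← ht']
    simp [hc0]
  · have hT := hT1 hA'
    set π : V → ℝ := fun x => QA W n θ z (fun ω => - (jc n ω z * jc n ω x)) / wA with hπ
    have hc : ∀ x, cθ W n θ z x = (t * wA / (wB + t * wA)) * π x := by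
      intro x; rw [e4, hπ]; field_simp
    have hF : ∑ x, cθ W n θ z x * (a x - a z) = (t * wA / (wB + t * wA)) * ∑ x, π x * (a x - a z) := by
      rw [Finset.mul_sum]; refine Finset.sum_congr rfl fun x _ => ?_; rw [hc]; ring
    have hS : ∑ x, cθ W n θ z x * (a x - a z) ^ 2
        = (t * wA / (wB + t * wA)) * ∑ x, π x * (a x - a z) ^ 2 := by
      rw [Finset.mul_sum]; refine Finset.sum_congr rfl fun x _ => ?_; rw [hc]; ring
    rw [e1, e2, e3, ev, hF, hS]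
    set ab := ∑ x, π x * (a x - a z)
    set L := ∑ x, π x * (a x - a z) ^ 2
    set v := t * wA / (wB + t * wA) with hv
    have hv0 : 0 < v := by positivity
    have h1v : 1 - v = wB / (wB + t * wA) := by rw [hv]; field_simp; ring
    have hlhs : t * P / (wB + t * wA) - v * ((R + t * P) / (wB + t * wA))
        = (1 - v) * v * (P / wA - R / wB) := by
      rw [h1v, hv]; field_simp; ring
    have hrhs : (1 - v) * ((1 - δ) * ((v * ab) ^ 2 / v) + δ * (v * L))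
        = (1 - v) * v * (ab ^ 2 + δ * (L - ab ^ 2)) := by
      field_simp; ring
    rw [hlhs, hrhs]
    apply mul_le_mul_of_nonneg_left hT
    have : 0 ≤ 1 - v := by rw [h1v]; positivity
    positivity

end OneNode

end

end Vale.Agent.P361.LRO.SR
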