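import Vale.Agent.P361.LRO.Defs
import Vale.Agent.P361.LRO.SR.Deriv
import Vale.Agent.P361.LRO.SR.OneNodeDef
import Vale.Agent.P361.LRO.ThmOne

/-!
# P361, long range order, block SR: the one-node inequality on the common definitions
-/

namespace Vale.Agent.P361.LRO.ONI

open Finset
open scoped BigOperators

noncomputable section

variable {X : Type} [Fintype X] [DecidableEq X]

/-- the exponents `1 + j` of the charge law -/
def nj (ω : Equiv.Perm X × (X → Fin 2)) (x : X) : ℕ :=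
  if ω.2 x = ω.2 (ω.1 x) then 1 else if ω.2 x = 1 then 2 else 0

omit [Fintype X] [DecidableEq X] in
lemma nj_le (ω : Equiv.Perm X × (X → Fin 2)) (x : X) : nj ω x ≤ 2 := by
  unfold nj; split_ifs <;> norm_num

omit [Fintype X] [DecidableEq X] in
lemma nj_eq_one (ω : Equiv.Perm X × (X → Fin 2)) (x : X) :
    nj ω x = 1 ↔ ω.2 x = ω.2 (ω.1 x) := by
  unfold nj; split_ifs <;> simp_all

omit [Fintype X] [DecidableEq X] in
lemma jc_nj (ω : Equiv.Perm X × (X → Fin 2)) (x : X) :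
    SR.jc (nj (X := X)) ω x = jj ω.1 ω.2 x := by
  unfold SR.jc nj jj
  generalize ω.2 x = a
  generalize ω.2 (ω.1 x) = b
  fin_cases a <;> fin_cases b <;> simp <;> norm_num

/-- the weight at `θ = 1` -/
def Wμ (μ : Equiv.Perm X → ℝ) (ω : Equiv.Perm X × (X → Fin 2)) : ℝ := μ ω.1

lemma wθ_nj (μ : Equiv.Perm X → ℝ) (θ : X → ℝ) (ω : Equiv.Perm X × (X → Fin 2)) :
    SR.wθ (Wμ μ) nj θ ω = μ ω.1 * wt θ ω.1 ω.2 := by
  unfold SR.wθ Wμ wt
  congr 1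
  refine Finset.prod_congr rfl fun x _ => ?_
  simp only [nj_eq_one]

lemma sum_nj (μ : Equiv.Perm X → ℝ) (θ : X → ℝ) (f : Equiv.Perm X → (X → Fin 2) → ℝ) :
    ∑ ω, SR.wθ (Wμ μ) nj θ ω * f ω.1 ω.2 = ∑ π, ∑ s, μ π * wt θ π s * f π s := by
  rw [Fintype.sum_prod_type]
  refine Finset.sum_congr rfl fun π _ => Finset.sum_congr rfl fun s _ => ?_
  rw [wθ_nj]

lemma Zθ_nj (μ : Equiv.Perm X → ℝ) (θ : X → ℝ) : SR.Zθ (Wμ μ) nj θ = ZZ μ θ := by
  have := sum_nj μ θ (fun _ _ => 1)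
  simp only [mul_one] at this
  exact this

lemma Eθ_nj (μ : Equiv.Perm X → ℝ) (θ : X → ℝ) (f : Equiv.Perm X → (X → Fin 2) → ℝ) :
    SR.Eθ (Wμ μ) nj θ (fun ω => f ω.1 ω.2) = EE μ θ f := by
  unfold SR.Eθ EE
  rw [sum_nj, Zθ_nj]

lemma vθ_nj (μ : Equiv.Perm X → ℝ) (θ : X → ℝ) (z : X) :
    SR.vθ (Wμ μ) nj θ z = vv μ θ z := by
  unfold SR.vθ vv
  simp only [jc_nj]
  exact Eθ_nj μ θ (fun π s => jj π s z ^ 2)

lemma cθ_nj (μ : Equiv.Perm X → ℝ) (θ : X → ℝ) (u v : X) :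
    SR.cθ (Wμ μ) nj θ u v = cc μ θ u v := by
  unfold SR.cθ cc
  simp only [jc_nj]
  rw [Eθ_nj μ θ (fun π s => jj π s u * jj π s v)]

/-- law of a product of random transpositions: nonnegativity -/
lemma law_nonneg (l : List (X × X × ℝ)) (σ : Equiv.Perm X)
    (hl : ∀ g ∈ l, 0 ≤ g.2.2 ∧ g.2.2 ≤ 1 / 2) (π : Equiv.Perm X) : 0 ≤ law l σ π := by
  induction l generalizing π with
  | nil =>
    unfold law
    by_cases h : π = σ
    · subst h; simp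
    · simp [Pi.single_apply, h]
  | cons g l ih =>
    have h1 := hl g (by simp)
    have h2 := ih (fun g' hg' => hl g' (by simp [hg']))
    unfold law
    have h3 := h2 π
    have h4 := h2 (Equiv.swap g.1 g.2.1 * π)
    have h5 : 0 ≤ 1 - g.2.2 := by linarith [h1.2]
    have := h1.1
    positivity

/-- law of a product of random transpositions: total mass -/
lemma law_sum (l : List (X × X × ℝ)) (σ : Equiv.Perm X) : ∑ π, law l σ π = 1 := by
  induction l with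
  | nil =>
    unfold law
    simp
  | cons g l ih =>
    have : ∑ π, law l σ (Equiv.swap g.1 g.2.1 * π) = 1 := by
      rw [← ih]
      exact Fintype.sum_equiv (Equiv.mulLeft (Equiv.swap g.1 g.2.1)) _ _ (fun π => rfl)
    unfold law
    rw [Finset.sum_add_distrib, ← Finset.mul_sum, ← Finset.mul_sum, ih, this]
    ring

lemma isLaw_nonneg {μ : Equiv.Perm X → ℝ} (h : IsLaw μ) (π : Equiv.Perm X) : 0 ≤ μ π := by
  obtain ⟨l, σ, hl, rfl⟩ := h
  exact law_nonneg l σ hl π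

lemma isLaw_sum {μ : Equiv.Perm X → ℝ} (h : IsLaw μ) : ∑ π, μ π = 1 := by
  obtain ⟨l, σ, hl, rfl⟩ := h
  exact law_sum l σ

lemma wt_nonneg' {θ : X → ℝ} (h : ∀ x, 0 ≤ θ x) (π : Equiv.Perm X) (s : X → Fin 2) :
    0 ≤ wt θ π s := by
  unfold wt
  refine Finset.prod_nonneg fun x _ => ?_
  split_ifs
  · exact zero_le_one
  · exact h x

lemma sum_jj_eq_zero (π : Equiv.Perm X) (s : X → Fin 2) : ∑ x, jj π s x = 0 := by
  unfold jj
  rw [Finset.sum_sub_distrib, sub_eq_zero]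
  exact (Equiv.sum_comp π (fun x => ((s x : ℕ) : ℝ))).symm

lemma sum_nj_eq_card (ω : Equiv.Perm X × (X → Fin 2)) : ∑ x, nj ω x = Fintype.card X := by
  have h := sum_jj_eq_zero ω.1 ω.2
  have h2 : ∑ x, jj ω.1 ω.2 x = ((∑ x, nj ω x : ℕ) : ℝ) - Fintype.card X := by
    rw [Nat.cast_sum, ← Finset.card_univ, Finset.cast_card, ← Finset.sum_sub_distrib]
    refine Finset.sum_congr rfl fun x _ => ?_
    rw [← jc_nj]; rfl
  rw [h2, sub_eq_zero] at h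
  exact_mod_cast h

/-- the global flip of the spins -/
def flipPerm : Equiv.Perm (Equiv.Perm X × (X → Fin 2)) where
  toFun ω := (ω.1, fun x => 1 - ω.2 x)
  invFun ω := (ω.1, fun x => 1 - ω.2 x)
  left_inv ω := by ext <;> simp
  right_inv ω := by ext <;> simp

omit [Fintype X] [DecidableEq X] in
lemma nj_flip (ω : Equiv.Perm X × (X → Fin 2)) (x : X) :
    nj (flipPerm ω) x = 2 - nj ω x := by
  have h : ∀ a b : Fin 2, (if (1 - a : Fin 2) = 1 - b then 1 else if (1 - a : Fin 2) = 1 then 2 else 0)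
      = 2 - (if a = b then 1 else if a = 1 then 2 else 0) := by decide
  exact h (ω.2 x) (ω.2 (ω.1 x))

lemma wθ_flip (μ : Equiv.Perm X → ℝ) (θ : X → ℝ) (ω : Equiv.Perm X × (X → Fin 2)) :
    SR.wθ (Wμ μ) nj θ (flipPerm ω) = SR.wθ (Wμ μ) nj θ ω := by
  unfold SR.wθ
  have h1 : Wμ μ (flipPerm ω) = Wμ μ ω := rfl
  rw [h1]
  congr 1
  refine Finset.prod_congr rfl fun x _ => ?_
  have h2 : nj (flipPerm ω) x = 1 ↔ nj ω x = 1 := by
    rw [nj_flip]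
    have := nj_le ω x
    omega
  simp only [h2]

/-- the generating function in Omega-form -/
lemma gen_eq (μ : Equiv.Perm X → ℝ) (θ : X → ℝ) (ζ : X → ℂ) :
    gen μ θ ζ = ∑ ω, ((SR.wθ (Wμ μ) nj θ ω : ℝ) : ℂ) * ∏ x, ζ x ^ nj ω x := by
  unfold gen
  rw [Fintype.sum_prod_type]
  refine Finset.sum_congr rfl fun π _ => Finset.sum_congr rfl fun s _ => ?_
  rw [wθ_nj]
  congr 1
  refine Finset.prod_congr rfl fun x _ => ?_
  unfold nj
  simp only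
  split_ifs <;> simp

lemma QA_one_nj (μ : Equiv.Perm X → ℝ) (θ : X → ℝ) (z : X) :
    SR.QA (Wμ μ) nj θ z (fun _ => 1)
      = ∑ π, ∑ s : X → Fin 2, if s z = s (π z) then 0
          else μ π * wt (Function.update θ z 1) π s := by
  unfold SR.QA
  rw [Fintype.sum_prod_type]
  refine Finset.sum_congr rfl fun π _ => Finset.sum_congr rfl fun s _ => ?_
  simp only [nj_eq_one, wθ_nj, mul_one]

lemma wt_update_of_eq (θ : X → ℝ) (z : X) (t : ℝ) (π : Equiv.Perm X) (s : X → Fin 2)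
    (h : s z = s (π z)) : wt (Function.update θ z t) π s = wt θ π s := by
  unfold wt
  refine Finset.prod_congr rfl fun x _ => ?_
  by_cases hx : x = z
  · subst hx; simp [h]
  · rw [Function.update_of_ne hx]

lemma QB_one_nj (μ : Equiv.Perm X → ℝ) (θ : X → ℝ) (z : X) :
    SR.QB (Wμ μ) nj θ z (fun _ => 1)
      = ∑ π, ∑ s : X → Fin 2, if s z = s (π z) then μ π * wt θ π s else 0 := by
  unfold SR.QB
  rw [Fintype.sum_prod_type]
  refine Finset.sum_congr rfl fun π _ => Finset.sum_congr rfl fun s _ => ?_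
  simp only [nj_eq_one, wθ_nj, mul_one]
  split_ifs with h
  · rw [wt_update_of_eq θ z 1 π s h]
  · rfl

lemma mag_eq (μ : Equiv.Perm X → ℝ) (θ : X → ℝ) (z : X) :
    mag μ θ z = SR.QA (Wμ μ) nj θ z (fun _ => 1) / SR.QB (Wμ μ) nj θ z (fun _ => 1) := by
  rw [QA_one_nj, QB_one_nj]
  rfl

lemma wθ_nonneg {μ : Equiv.Perm X → ℝ} (hμ : IsLaw μ) {θ : X → ℝ} (hθ : ∀ x, 0 ≤ θ x)
    (ω : Equiv.Perm X × (X → Fin 2)) : 0 ≤ SR.wθ (Wμ μ) nj θ ω := by
  rw [wθ_nj]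
  exact mul_nonneg (isLaw_nonneg hμ _) (wt_nonneg' hθ _ _)

lemma update_nonneg {θ : X → ℝ} (hθ : ∀ x, 0 ≤ θ x) (z : X) (x : X) :
    0 ≤ Function.update θ z 1 x := by
  by_cases hx : x = z
  · subst hx; simp
  · rw [Function.update_of_ne hx]; exact hθ x

lemma QB_pos {μ : Equiv.Perm X → ℝ} (hμ : IsLaw μ) {θ : X → ℝ} (hθ : ∀ x, 0 ≤ θ x) (z : X) :
    0 < SR.QB (Wμ μ) nj θ z (fun _ => 1) := by
  have h1 : (1:ℝ) ≤ SR.QB (Wμ μ) nj θ z (fun _ => 1) := by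
    rw [QB_one_nj, ← isLaw_sum hμ]
    refine Finset.sum_le_sum fun π _ => ?_
    have h2 : (fun s : X → Fin 2 => if s z = s (π z) then μ π * wt θ π s else 0)
        (fun _ => 0) = μ π := by
      simp [wt]
    have h3 := Finset.single_le_sum (f := fun s : X → Fin 2 => if s z = s (π z)
      then μ π * wt θ π s else 0) (s := Finset.univ) (fun s _ => by
        split_ifs
        · exact mul_nonneg (isLaw_nonneg hμ _) (wt_nonneg' hθ _ _)
        · exact le_rfl) (Finset.mem_univ (fun _ => 0))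
    exact h2.symm.le.trans h3
  linarith

lemma QA_nonneg {μ : Equiv.Perm X → ℝ} (hμ : IsLaw μ) {θ : X → ℝ} (hθ : ∀ x, 0 ≤ θ x) (z : X) :
    0 ≤ SR.QA (Wμ μ) nj θ z (fun _ => 1) := by
  unfold SR.QA
  refine Finset.sum_nonneg fun ω _ => ?_
  split_ifs
  · exact le_rfl
  · rw [mul_one]; exact wθ_nonneg hμ (update_nonneg hθ z) ω

lemma QA_eq_zero {μ : Equiv.Perm X → ℝ} (hμ : IsLaw μ) {θ : X → ℝ} (hθ : ∀ x, 0 ≤ θ x) (z : X)
    (h : SR.QA (Wμ μ) nj θ z (fun _ => 1) = 0) (F : Equiv.Perm X × (X → Fin 2) → ℝ) :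
    SR.QA (Wμ μ) nj θ z F = 0 := by
  unfold SR.QA at h ⊢
  have h1 := (Finset.sum_eq_zero_iff_of_nonneg (fun ω _ => by
    split_ifs
    · exact le_rfl
    · rw [mul_one]; exact wθ_nonneg hμ (update_nonneg hθ z) ω)).mp h
  refine Finset.sum_eq_zero fun ω hω => ?_
  have h2 := h1 ω hω
  split_ifs at h2 ⊢ with h3
  · rfl
  · rw [mul_one] at h2; rw [h2, zero_mul]

/-- the conclusion of Theorem 1 of note 8371 for the law at `θ z = 1` (Omega-form). -/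
def StarMeshAt (μ : Equiv.Perm X → ℝ) (θ : X → ℝ) (z : X) : Prop :=
  SR.QA (Wμ μ) nj θ z (fun _ => 1) ≤ SR.QB (Wμ μ) nj θ z (fun _ => 1) ∧
  (0 < SR.QA (Wμ μ) nj θ z (fun _ => 1) → ∀ a : X → ℝ, ∀ ε : ℝ,
    ε = Real.sqrt (1 - 2 * SR.QA (Wμ μ) nj θ z (fun _ => 1) /
      (SR.QA (Wμ μ) nj θ z (fun _ => 1) + SR.QB (Wμ μ) nj θ z (fun _ => 1))) →
      SR.QA (Wμ μ) nj θ z (fun ω => (∑ x, a x * SR.jc nj ω x) ^ 2)
          / SR.QA (Wμ μ) nj θ z (fun _ => 1)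
        - SR.QB (Wμ μ) nj θ z (fun ω => (∑ x, a x * SR.jc nj ω x) ^ 2)
          / SR.QB (Wμ μ) nj θ z (fun _ => 1)
      ≤ (∑ x, SR.QA (Wμ μ) nj θ z (fun ω => - (SR.jc nj ω z * SR.jc nj ω x))
            / SR.QA (Wμ μ) nj θ z (fun _ => 1) * (a x - a z)) ^ 2
        + 2 * ε / (1 + ε ^ 2) *
          (∑ x, SR.QA (Wμ μ) nj θ z (fun ω => - (SR.jc nj ω z * SR.jc nj ω x))
            / SR.QA (Wμ μ) nj θ z (fun _ => 1) * (a x - a z) ^ 2
          - (∑ x, SR.QA (Wμ μ) nj θ z (fun ω => - (SR.jc nj ω z * SR.jc nj ω x))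
            / SR.QA (Wμ μ) nj θ z (fun _ => 1) * (a x - a z)) ^ 2))

lemma delta_eq {p q ε : ℝ} (hp : 0 ≤ p) (hq : 0 < q) (hpq : p ≤ q)
    (hε : ε = Real.sqrt (1 - 2 * p / (p + q))) :
    2 * ε / (1 + ε ^ 2) = Real.sqrt (1 - (p / q) ^ 2) := by
  have h0 : 1 - 2 * p / (p + q) = (q - p) / (q + p) := by field_simp; ring
  have h1 : 0 ≤ (q - p) / (q + p) := div_nonneg (by linarith) (by linarith)
  have h2 : ε ^ 2 = (q - p) / (q + p) := by
    rw [hε, h0, Real.sq_sqrt h1]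
  have h3 : 0 ≤ ε := by rw [hε]; exact Real.sqrt_nonneg _
  have h4 : 0 ≤ 2 * ε / (1 + ε ^ 2) := by positivity
  have hpq0 : 0 < q + p := by linarith
  have h5 : 1 - (p / q) ^ 2 = (2 * ε / (1 + ε ^ 2)) ^ 2 := by
    have h6 : (2 * ε / (1 + ε ^ 2)) ^ 2 = 4 * ε ^ 2 / (1 + ε ^ 2) ^ 2 := by
      rw [div_pow, mul_pow]; norm_num
    have h7 : 1 + (q - p) / (q + p) = 2 * q / (q + p) := by field_simp; ring
    rw [h6, h2, h7]
    field_simp
    ring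
  rw [h5, Real.sqrt_sq h4]

theorem oneNode_aux {μ : Equiv.Perm X → ℝ} (hμ : IsLaw μ)
    (hcc : ∀ θ : X → ℝ, (∀ x, 0 ≤ θ x ∧ θ x ≤ 1) → ∀ u v, u ≠ v → 0 ≤ cc μ θ u v)
    (hT : ∀ θ : X → ℝ, (∀ x, 0 ≤ θ x ∧ θ x ≤ 1) → ∀ z, StarMeshAt μ θ z) : OneNode μ := by
  intro θ hθ z hz a
  obtain ⟨hAB, hT1⟩ := hT θ hθ z
  have hθ0 : ∀ x, 0 ≤ θ x := fun x => (hθ x).1
  set wA := SR.QA (Wμ μ) nj θ z (fun _ => 1) with hwA
  set wB := SR.QB (Wμ μ) nj θ z (fun _ => 1) with hwB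
  have hA : 0 ≤ wA := QA_nonneg hμ hθ0 z
  have hB : 0 < wB := QB_pos hμ hθ0 z
  have hδ := delta_eq hA hB hAB rfl
  have hM : mag μ θ z = wA / wB := mag_eq μ θ z
  have key := SR.cov_le (Wμ μ) nj nj_le θ z a (Real.sqrt (1 - (wA / wB) ^ 2)) hz.le hA hB
    (fun h F => QA_eq_zero hμ hθ0 z h F) (fun h => by
      rw [← hδ]
      exact hT1 h a _ rfl)
  simp only [jc_nj, cθ_nj, vθ_nj] at key
  rw [Eθ_nj μ θ (fun π s => jj π s z ^ 2 * (∑ x, a x * jj π s x) ^ 2),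
    Eθ_nj μ θ (fun π s => jj π s z ^ 2),
    Eθ_nj μ θ (fun π s => (∑ x, a x * jj π s x) ^ 2)] at key
  rw [hM]
  set δ := Real.sqrt (1 - (wA / wB) ^ 2) with hδdef
  have hS : 0 ≤ ∑ x, cc μ θ z x * (a x - a z) ^ 2 := by
    refine Finset.sum_nonneg fun x _ => ?_
    by_cases hx : z = x
    · subst hx; simp
    · exact mul_nonneg (hcc θ hθ z x hx) (sq_nonneg _)
  have hδ0 : 0 ≤ δ := Real.sqrt_nonneg _
  have hδ1 : δ ≤ 1 := by
    rw [hδdef]
    apply Real.sqrt_le_one.mpr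
    nlinarith [sq_nonneg (wA / wB)]
  have hZ : ZZ μ θ = wB + θ z * wA := by
    rw [← Zθ_nj]; exact SR.Zθ_split (Wμ μ) nj θ z
  have hv : vv μ θ z = θ z * wA / (wB + θ z * wA) := by
    rw [← vθ_nj]
    unfold SR.vθ SR.Eθ
    have := SR.sum_jsq (Wμ μ) nj nj_le θ z (fun _ => 1)
    simp only [mul_one] at this
    rw [this, SR.Zθ_split (Wμ μ) nj θ z]
  have hv0 : 0 ≤ vv μ θ z := by rw [hv]; positivity
  have hv1 : vv μ θ z ≤ 1 := by
    rw [hv, div_le_one (by positivity)]; linarith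
  have hF : 0 ≤ (∑ x, cc μ θ z x * (a x - a z)) ^ 2 / vv μ θ z := div_nonneg (sq_nonneg _) hv0
  refine key.trans ?_
  set F := (∑ x, cc μ θ z x * (a x - a z)) ^ 2 / vv μ θ z
  set S := ∑ x, cc μ θ z x * (a x - a z) ^ 2
  have h1 : (1 - δ) * F + δ * S ≤ F + δ * S := by nlinarith [mul_nonneg hδ0 hF]
  have h2 : 0 ≤ (1 - δ) * F + δ * S := by
    have := mul_nonneg (sub_nonneg.mpr hδ1) hF
    have := mul_nonneg hδ0 hS
    linarith
  have h3 : (1 - vv μ θ z) * ((1 - δ) * F + δ * S) ≤ 1 * ((1 - δ) * F + δ * S) :=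
    mul_le_mul_of_nonneg_right (by linarith) h2
  linarith

/-- Theorem 1 (helper106) for the charge laws. -/
theorem starMeshAt_of_stable {μ : Equiv.Perm X → ℝ} (hμ : IsLaw μ) {θ : X → ℝ}
    (hθ : ∀ x, 0 ≤ θ x) (z : X) (hst : Stable μ (Function.update θ z 1)) :
    StarMeshAt μ θ z := by
  set W' : Equiv.Perm X × (X → Fin 2) → ℝ :=
    fun ω => SR.wθ (Wμ μ) nj (Function.update θ z 1) ω with hW'
  have hW : ∀ ω, 0 ≤ W' ω := fun ω => wθ_nonneg hμ (update_nonneg hθ z) ω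
  have hst' : ∀ y : X → ℂ, (∀ x, 0 < (y x).im) →
      ∑ ω, (W' ω : ℂ) * ∏ x, y x ^ nj ω x ≠ 0 := by
    intro y hy
    rw [← gen_eq]
    exact hst y hy
  have hdeg : ∀ ω, W' ω ≠ 0 → ∑ x, nj ω x = Fintype.card X := fun ω _ => sum_nj_eq_card ω
  have hWι : ∀ ω, W' (flipPerm ω) = W' ω := fun ω => wθ_flip μ _ ω
  refine ⟨?_, ?_⟩
  · -- `wA ≤ wB`
    set w1 : ℝ := T1.Sk W' nj z 2 (fun _ => 1) with hw1
    have h00 : T1.Sk W' nj z 0 (fun _ => 1) = w1 :=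
      T1.Sk_symm nj_le flipPerm hWι nj_flip z (by norm_num) _
    have hw1n : 0 ≤ w1 := Finset.sum_nonneg fun w _ => by
      split_ifs
      · rw [mul_one]; exact hW w
      · exact le_rfl
    have hw0n : 0 ≤ T1.Sk W' nj z 1 (fun _ => 1) := Finset.sum_nonneg fun w _ => by
      split_ifs
      · rw [mul_one]; exact hW w
      · exact le_rfl
    have hsA1 : SR.QA (Wμ μ) nj θ z (fun _ => 1) = 2 * w1 := by
      change T1.sA W' nj z (fun _ => 1) = 2 * w1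
      rw [T1.sA_eq nj_le, h00]
      ring
    have hsB1 : SR.QB (Wμ μ) nj θ z (fun _ => 1) = T1.Sk W' nj z 1 (fun _ => 1) := rfl
    rw [hsA1, hsB1]
    rcases hw1n.eq_or_lt with h | h
    · rw [← h]; simpa using hw0n
    · refine T1.two_mul_le nj_le hdeg ?_ z _ _ h hw0n h00 rfl rfl
      intro y hy
      rw [T1.gen_aeval]
      exact hst' y hy
  · intro _ a ε hε
    have key := T1.theorem_one hW nj_le hdeg flipPerm hWι nj_flip hst' z a
      (fun x => T1.EA W' nj z fun w => -((nj w z : ℝ) - 1) * ((nj w x : ℝ) - 1)) _ _ ε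
      (fun _ => rfl) rfl rfl hε
    have e1 : ∀ x, T1.EA W' nj z (fun w => -((nj w z : ℝ) - 1) * ((nj w x : ℝ) - 1))
        = SR.QA (Wμ μ) nj θ z (fun ω => - (SR.jc nj ω z * SR.jc nj ω x))
            / SR.QA (Wμ μ) nj θ z (fun _ => 1) := by
      intro x
      have : (fun ω : Equiv.Perm X × (X → Fin 2) => -(SR.jc nj ω z * SR.jc nj ω x))
          = fun w => -((nj w z : ℝ) - 1) * ((nj w x : ℝ) - 1) := by
        funext w; unfold SR.jc; ring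
      rw [this]
      rfl
    simp only [e1] at key
    exact key

/-- **The one-node inequality**, from strong Rayleigh stability. -/
theorem oneNode_of_stable {μ : Equiv.Perm X → ℝ} (hμ : IsLaw μ)
    (hst : ∀ θ : X → ℝ, (∀ x, 0 ≤ θ x ∧ θ x ≤ 1) → Stable μ θ)
    (hcc : ∀ θ : X → ℝ, (∀ x, 0 ≤ θ x ∧ θ x ≤ 1) → ∀ u v, u ≠ v → 0 ≤ cc μ θ u v) :
    OneNode μ := by
  refine oneNode_aux hμ hcc fun θ hθ z => starMeshAt_of_stable hμ (fun x => (hθ x).1) z ?_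
  apply hst
  intro x
  by_cases hx : x = z
  · subst hx; simp
  · rw [Function.update_of_ne hx]; exact hθ x

/-- `v_z ≤ θ_z M_z` and `M_z ≤ 1`. -/
theorem mag_le_one {μ : Equiv.Perm X → ℝ} (hμ : IsLaw μ) {θ : X → ℝ}
    (hθ : ∀ x, 0 ≤ θ x) (z : X) (hst : Stable μ (Function.update θ z 1)) :
    mag μ θ z ≤ 1 := by
  rw [mag_eq, div_le_one (QB_pos hμ hθ z)]
  exact (starMeshAt_of_stable hμ hθ z hst).1

theorem mag_nonneg {μ : Equiv.Perm X → ℝ} (hμ : IsLaw μ) {θ : X → ℝ}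
    (hθ : ∀ x, 0 ≤ θ x) (z : X) : 0 ≤ mag μ θ z := by
  rw [mag_eq]
  exact div_nonneg (QA_nonneg hμ hθ z) (QB_pos hμ hθ z).le

/-- `v_z = θ_z M_z / (1 + θ_z M_z)`. -/
theorem vv_eq {μ : Equiv.Perm X → ℝ} (hμ : IsLaw μ) {θ : X → ℝ}
    (hθ : ∀ x, 0 ≤ θ x) (z : X) :
    vv μ θ z = θ z * mag μ θ z / (1 + θ z * mag μ θ z) := by
  have hB := QB_pos hμ hθ z
  have hA := QA_nonneg hμ hθ z
  rw [mag_eq, ← vθ_nj]
  unfold SR.vθ SR.Eθ
  have := SR.sum_jsq (Wμ μ) nj nj_le θ z (fun _ => 1)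
  simp only [mul_one] at this
  rw [this, SR.Zθ_split (Wμ μ) nj θ z]
  have h0 := hθ z
  field_simp

/-- `v_z ≤ θ_z`. -/
theorem vv_le {μ : Equiv.Perm X → ℝ} (hμ : IsLaw μ) {θ : X → ℝ}
    (hθ : ∀ x, 0 ≤ θ x) (z : X) (hst : Stable μ (Function.update θ z 1)) :
    vv μ θ z ≤ θ z := by
  rw [vv_eq hμ hθ z]
  have h0 := mag_nonneg hμ hθ z
  have h1 := mag_le_one hμ hθ z hst
  have h2 := hθ z
  have h3 : 0 ≤ θ z * mag μ θ z := mul_nonneg h2 h0
  rw [div_le_iff₀ (by linarith)]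
  nlinarith [mul_nonneg h2 h3, mul_le_mul_of_nonneg_left h1 h2]

end

end Vale.Agent.P361.LRO.ONI
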